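import Vale.Agent.P181.H780.LT.Defs
import Vale.Agent.P181.H964.S3
import Vale.Agent.P181.H270.S4a
import Vale.Agent.P181.H968.S4b
import Vale.Agent.P181.H869.S5
import Vale.Agent.P181.H879.S6

set_option autoImplicit false

/-!
# P181: `b = a + 1`, `lam_a ≥ 2`: the KILL relation (X3)
-/

open scoped TensorProduct

namespace Vale.Agent.P181.H780.LT

open Vale.Agent.P181 Vale.Agent.P181.H280 Vale.Agent.P181.H270 Vale.Agent.P181.H73
  Vale.Agent.P181.H983 Finset MvPolynomial

/-- **(X3)** `altC² F` is killed by arguments with a common factor. -/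
theorem kill : KillStmt := by
  intro c F hs hR l hl y hy
  have hd : (c + 1) + 2 = (0 + 1) * (c + 3) + 0 := by ring
  have hsl : IsSymm (mulL l F) := mulL_symm l hs
  obtain ⟨F', hs', hF'⟩ := H964.S3.s3 2 (c + 3) ((c + 1) + 2) (mulL l F) hsl
  have hrel : Rel 0 (0 + 1) (linS (c + 3)) F' := by
    apply H879.s6
    intro w
    have h1 : ∀ (e : Equiv.Perm (Fin 0 ⊕ (Fin (c + 3) × Fin (0 + 1))))
        (σ : Fin 0 → Equiv.Perm (Fin (c + 3))), wv (slot e σ) F' w =
        colZ 2 (c + 3) (wv (slot e σ) (mulL l F)) w := by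
      intro e σ
      apply hF'
      intro p
      rw [slot_fibre]
      ring
    simp only [h1]
    have h2 : ∑ e : Equiv.Perm (Fin 0 ⊕ (Fin (c + 3) × Fin (0 + 1))),
        ∑ σ : Fin 0 → Equiv.Perm (Fin (c + 3)),
          colZ 2 (c + 3) (wv (slot e σ) (mulL l F)) w =
        ∑ ι : Fin 2 × Fin (c + 3) ↪ (Fin 0 ⊕ (Fin (c + 3) × Fin (0 + 1))) × Fin (c + 3),
          colSum ι (fun w => ∑ e : Equiv.Perm (Fin 0 ⊕ (Fin (c + 3) × Fin (0 + 1))),
            ∑ σ : Fin 0 → Equiv.Perm (Fin (c + 3)), wv (slot e σ) (mulL l F) w) w := by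
      simp only [colSum_sum univ, colZ]
      rw [Finset.sum_congr rfl (fun e _ => Finset.sum_comm), Finset.sum_comm]
    rw [h2]
    apply Finset.sum_eq_zero
    intro ι _
    exact H869.s5 (c + 3) 0 0 2 F hR l hl (by omega) ι w
  have hz := base c 0 F' hs' hrel (fun j hj => absurd hj (by omega))
  have hfin : ∀ P : Fin (c + 3) → MvPolynomial (Fin (c + 3)) ℂ,
      (∀ i, P i ∈ linS (c + 3) ^ (c + 1)) →
      ((altC (fun i => (X i : MvPolynomial (Fin (c + 3)) ℂ)))^[2] (mulL l F)) P = 0 := by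
    apply H968.s4b (c + 3) 2 (c + 1) (mulL l F) hsl
    apply s1
    intro ι w
    have h1 : (wv (fun p : Fin (c + 3) × Fin (c + 1 + 2) => p.1) F') =
        colZ 2 (c + 3) (wv (fun p => p.1) (mulL l F)) := by
      funext w
      apply hF'
      intro p
      apply fst_fibre' rfl
    rw [← h1]
    apply H270.s4a (c + 3) 2 (c + 1) F' hs'
    · intro P hP
      have h3 := hz P hP
      have h4 : 0 * (c + 3) + 0 + 2 = 2 := by ring
      rw [h4] at h3
      exact h3
    · intro p
      apply fst_fibre' rfl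
  rw [← altC_iter_mulL]
  exact hfin y hy

end Vale.Agent.P181.H780.LT
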