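import Vale.Agent.P181.H780.LT.X5
import Vale.Agent.P181.H780.LT.Kill
import Vale.Agent.P181.H907.KS2

set_option autoImplicit false

/-!
# P181: `b = a + 1`, `lam_a ≥ 2`: everything but the star row
-/

namespace Vale.Agent.P181.H780.LT

open Vale.Agent.P181 Vale.Agent.P181.H280 Vale.Agent.P181.H270 Vale.Agent.P181.H73
  Vale.Agent.P181.H983 Finset MvPolynomial

/-- `K*` for odd degree (helper907, helper493). -/
theorem kStarOdd : KStarOdd := by
  intro c hc φ hs hK u hu w hw v hv
  refine H907.kStar (L := linS (c + 3)) (φ := φ) hK hc hs _ ?_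
  intro i
  by_cases h : i = 0
  · rw [if_pos h]
    exact Submodule.pow_mem_pow _ hu _
  · rw [if_neg h, pow_succ']
    exact Submodule.mul_mem_mul hw (hv i)

/-- `F(a, a + 1, lam)` for `lam_a ≥ 2`, from the star row alone. -/
theorem tallTwo_of_star (hS : StarStmt) : TallTwo := tallTwo hS kill kStarOdd

end Vale.Agent.P181.H780.LT
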