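import Vale.Agent.P181.H983.Main

set_option autoImplicit false

/-!
# P181: `b = a + 1`, shapes with `lam_a = 2`: literals

`a = c + 3`, `F` a symmetric form with the relation `Rel 1 1`, `φ = altC² F`, a symmetric form on
`c + 3` slots of degree `c + 2`.
-/

open scoped TensorProduct

namespace Vale.Agent.P181.H780.LT

open Vale.Agent.P181 Vale.Agent.P181.H280 Vale.Agent.P181.H270 Vale.Agent.P181.H73
  Vale.Agent.P181.H983 Finset MvPolynomial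

/-- Forms on `c + 3` slots. -/
abbrev Fm (c : ℕ) := MultilinearMap ℂ (fun _ : Fin (c + 3) => MvPolynomial (Fin (c + 3)) ℂ) ℂ

/-- (KILL): `φ(l y_1, …, l y_a) = 0`, the `y_i` of degree `c + 1`. -/
def Kill (c : ℕ) (φ : Fm c) : Prop :=
  ∀ l ∈ linS (c + 3), ∀ y : Fin (c + 3) → MvPolynomial (Fin (c + 3)) ℂ,
    (∀ i, y i ∈ linS (c + 3) ^ (c + 1)) → φ (fun i => l * y i) = 0

/-- The end: `φ(u^d; w v_1, …, w v_d) = 0`, `d = c + 2`. -/
def Peel (c : ℕ) (φ : Fm c) : Prop :=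
  ∀ u ∈ linS (c + 3), ∀ w ∈ linS (c + 3), ∀ v : Fin (c + 3) → MvPolynomial (Fin (c + 3)) ℂ,
    (∀ p, v p ∈ linS (c + 3) ^ (c + 1)) →
    φ (fun p => if p = 0 then u ^ (c + 2) else w * v p) = 0

/-- `φ` vanishes on degree `c + 2`. -/
def Van (c : ℕ) (φ : Fm c) : Prop :=
  ∀ P : Fin (c + 3) → MvPolynomial (Fin (c + 3)) ℂ, (∀ i, P i ∈ linS (c + 3) ^ (c + 2)) →
    φ P = 0

/-- [X3] KILL for `altC² F`. -/
def KillStmt : Prop := ∀ (c : ℕ) (F : Fm c), IsSymm F → Rel 1 1 (linS (c + 3)) F →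
  Kill c ((altC (xs (c + 3)))^[2] F)

/-- [X2] + [X4] + [X1] (helper663): `a` odd, i.e. `d = c + 2` even. -/
def StarStmt : Prop := ∀ (c : ℕ), Even c → ∀ F : Fm c, IsSymm F → Rel 1 1 (linS (c + 3)) F →
  Peel c ((altC (xs (c + 3)))^[2] F)

/-- helper493: (K*) for odd `d = c + 2`. -/
def KStarOdd : Prop := ∀ (c : ℕ), Odd c → ∀ φ : Fm c, IsSymm φ → Kill c φ → Peel c φ

/-- The theorem: `F(a, a + 1, lam)` for all shapes with `lam_a ≥ 2`. -/
def TallTwo : Prop := ∀ (a n : ℕ) (lam : Fin n → ℕ), 3 ≤ a → a ≤ n →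
  (∀ i : Fin n, (i : ℕ) < a → 2 ≤ lam i) →
  plethMult a (a + 1) n lam ≤ plethMult (a + 1) a n lam

end Vale.Agent.P181.H780.LT
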