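import Vale.Agent.P181.H663.Exch
import Vale.Agent.P181.H780.LT.Defs

set_option autoImplicit false
set_option linter.unusedSectionVars false

/-!
# P181: labels, expansion of the products of replacement operators
-/

namespace Vale.Agent.P181.H780.LT

open Finset Vale.Agent.P181 Vale.Agent.P181.H663 Vale.Agent.P181.H280

section Lab

variable {κ S W : Type} [Fintype κ] [DecidableEq κ] [DecidableEq S]

/-- The product of the operators `E_cj`, `j ∈ J`. -/
noncomputable def EL (c : S) (J : List S) (f : (κ → S) → W → ℂ) : (κ → S) → W → ℂ :=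
  J.foldr (fun j g => EE c j g) f

lemma EL_cons (c j : S) (J : List S) (f : (κ → S) → W → ℂ) :
    EL c (j :: J) f = EE c j (EL c J f) := rfl

lemma EL_perm (c : S) {J J' : List S} (h : J.Perm J') (hc : c ∉ J) (f : (κ → S) → W → ℂ) :
    EL c J f = EL c J' f := by
  induction h with
  | nil => rfl
  | cons x _ ih =>
    rw [List.mem_cons, not_or] at hc
    rw [EL_cons, EL_cons, ih hc.2]
  | swap x y l =>
    rw [List.mem_cons, List.mem_cons, not_or, not_or] at hc
    rw [EL_cons, EL_cons, EL_cons, EL_cons]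
    exact EE_comm c y c x (Ne.symm hc.1) (Ne.symm hc.2.1) _
  | trans h1 _ ih1 ih2 =>
    rw [ih1 hc, ih2 (fun h => hc (h1.mem_iff.2 h))]

lemma act_EL (τ : Equiv.Perm S) (c : S) (J : List S) (f : (κ → S) → W → ℂ) :
    act τ (EL c J f) = EL (τ c) (J.map τ) (act τ f) := by
  induction J with
  | nil => rfl
  | cons j J ih => rw [EL_cons, List.map_cons, EL_cons, act_EE, ih]

/-- Relabelling the letters `g i` by `ι i`. -/
def rel : (n : ℕ) → (κ → S) → (Fin n → κ) → (Fin n → S) → (κ → S)
  | 0, s, _, _ => s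
  | n + 1, s, g, ι => rel n (Function.update s (g 0) (ι 0)) (fun i => g i.succ) (fun i => ι i.succ)

lemma rel_out : ∀ (n : ℕ) (s : κ → S) (g : Fin n → κ) (ι : Fin n → S) (q : κ),
    (∀ i, g i ≠ q) → rel n s g ι q = s q
  | 0, _, _, _, _, _ => rfl
  | n + 1, s, g, ι, q, h => by
    rw [rel, rel_out n _ _ _ q (fun i => h i.succ), Function.update_of_ne (Ne.symm (h 0))]

lemma rel_in : ∀ (n : ℕ) (s : κ → S) (g : Fin n → κ) (ι : Fin n → S),
    Function.Injective g → ∀ i, rel n s g ι (g i) = ι i
  | 0, _, _, _, _, i => i.elim0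
  | n + 1, s, g, ι, h, i => by
    rw [rel]
    refine Fin.cases ?_ (fun i => ?_) i
    · rw [rel_out n _ _ _ (g 0) (fun i hi => Fin.succ_ne_zero i (h hi)), Function.update_self]
    · exact rel_in n _ (fun i => g i.succ) (fun i => ι i.succ)
        (fun a b hab => Fin.succ_injective _ (h hab)) i

/-- The expansion of a product of replacement operators. -/
lemma EL_eq (c : S) : ∀ (n : ℕ) (ι : Fin n → S), (∀ k, ι k ≠ c) → ∀ (f : (κ → S) → W → ℂ)
    (s : κ → S) (w : W), EL c (List.ofFn ι) f s w =
      ∑ g : Fin n → κ, if Function.Injective g ∧ ∀ i, s (g i) = c then f (rel n s g ι) w else 0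
  | 0, ι, _, f, s, w => by
    rw [List.ofFn_zero, Fintype.sum_unique, if_pos ⟨Function.injective_of_subsingleton _,
      fun i => i.elim0⟩]
    rfl
  | n + 1, ι, hι, f, s, w => by
    rw [List.ofFn_succ, EL_cons, EE]
    have h1 : ∀ p ∈ univ.filter (fun p => s p = c),
        EL c (List.ofFn (fun i => ι (Fin.succ i))) f (Function.update s p (ι 0)) w =
        ∑ g : Fin n → κ, if Function.Injective g ∧ ∀ i, Function.update s p (ι 0) (g i) = c then
          f (rel n (Function.update s p (ι 0)) g (fun i => ι i.succ)) w else 0 := by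
      intro p _
      exact EL_eq c n (fun i => ι i.succ) (fun k => hι _) f _ w
    rw [Finset.sum_congr rfl h1, Finset.sum_filter, ← (Fin.consEquiv (fun _ => κ)).sum_comp,
      Fintype.sum_prod_type]
    refine Finset.sum_congr rfl fun p _ => ?_
    split_ifs with hp
    · refine Finset.sum_congr rfl fun g _ => ?_
      have h2 : (Function.Injective g ∧ ∀ i, Function.update s p (ι 0) (g i) = c) ↔
          (Function.Injective (Fin.consEquiv (fun _ => κ) (p, g)) ∧
            ∀ i, s (Fin.consEquiv (fun _ => κ) (p, g) i) = c) := by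
        have h3 : Fin.consEquiv (fun _ => κ) (p, g) = (Fin.cons p g : Fin (n + 1) → κ) := rfl
        rw [h3, Fin.cons_injective_iff, Fin.forall_fin_succ]
        simp only [Fin.cons_zero, Fin.cons_succ]
        constructor
        · rintro ⟨h4, h5⟩
          have h6 : ∀ i, g i ≠ p := by
            intro i hi
            have := h5 i
            rw [hi, Function.update_self] at this
            exact hι 0 this
          refine ⟨⟨?_, h4⟩, hp, fun i => ?_⟩
          · rintro ⟨i, hi⟩
            exact h6 i hi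
          · have := h5 i
            rwa [Function.update_of_ne (h6 i)] at this
        · rintro ⟨⟨h4, h5⟩, _, h6⟩
          refine ⟨h5, fun i => ?_⟩
          rw [Function.update_of_ne (fun h => h4 ⟨i, h⟩)]
          exact h6 i
      by_cases h : Function.Injective g ∧ ∀ i, Function.update s p (ι 0) (g i) = c
      · rw [if_pos h, if_pos (h2.1 h)]
        rfl
      · rw [if_neg h, if_neg (fun hh => h (h2.2 hh))]
    · symm
      refine Finset.sum_eq_zero fun g _ => ?_
      rw [if_neg]
      rintro ⟨_, h⟩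
      exact hp (h 0)

/-- The letters of a label after relabelling. -/
lemma filter_rel {n : ℕ} (s : κ → S) (g : Fin n → κ) (ι : Fin n → S)
    (hg : Function.Injective g) (c i : S) (hs : ∀ k, s (g k) = c) (hi : i ≠ c) :
    univ.filter (fun p => rel n s g ι p = i) =
      univ.filter (fun p => s p = i) ∪ (univ.filter (fun k => ι k = i)).map ⟨g, hg⟩ := by
  ext p
  simp only [Finset.mem_filter, Finset.mem_univ, true_and, Finset.mem_union, Finset.mem_map,
    Function.Embedding.coeFn_mk]
  by_cases h : ∃ k, g k = p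
  · obtain ⟨k, rfl⟩ := h
    rw [rel_in n s g ι hg k, hs k]
    constructor
    · intro h
      exact Or.inr ⟨k, h, rfl⟩
    · rintro (h | ⟨k', h, h'⟩)
      · exact absurd h.symm hi
      · rw [← hg h']
        exact h
  · rw [rel_out n s g ι p (fun k hk => h ⟨k, hk⟩)]
    constructor
    · intro h
      exact Or.inl h
    · rintro (h' | ⟨k', _, h'⟩)
      · exact h'
      · exact absurd ⟨k', h'⟩ h

lemma disj_rel {n : ℕ} (s : κ → S) (g : Fin n → κ) (ι : Fin n → S)
    (hg : Function.Injective g) (c i : S) (hs : ∀ k, s (g k) = c) (hi : i ≠ c) :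
    Disjoint (univ.filter (fun p => s p = i)) ((univ.filter (fun k => ι k = i)).map ⟨g, hg⟩) := by
  rw [Finset.disjoint_left]
  intro p hp hp'
  rw [Finset.mem_filter] at hp
  rw [Finset.mem_map] at hp'
  obtain ⟨k, _, rfl⟩ := hp'
  exact hi (hp.2.symm.trans (hs k))

lemma prod_rel {A : Type*} [CommMonoid A] {n : ℕ} (s : κ → S) (g : Fin n → κ) (ι : Fin n → S)
    (hg : Function.Injective g) (c i : S) (hs : ∀ k, s (g k) = c) (hi : i ≠ c) (z : κ → A) :
    ∏ p ∈ univ.filter (fun p => rel n s g ι p = i), z p =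
      (∏ p ∈ univ.filter (fun p => s p = i), z p) *
        ∏ k ∈ univ.filter (fun k => ι k = i), z (g k) := by
  rw [filter_rel s g ι hg c i hs hi, Finset.prod_union (disj_rel s g ι hg c i hs hi),
    Finset.prod_map]
  rfl

lemma cnt_rel {n : ℕ} (s : κ → S) (g : Fin n → κ) (ι : Fin n → S)
    (hg : Function.Injective g) (c i : S) (hs : ∀ k, s (g k) = c) (hi : i ≠ c) :
    cnt i (rel n s g ι) = cnt i s + (univ.filter (fun k => ι k = i)).card := by
  rw [cnt, filter_rel s g ι hg c i hs hi,
    Finset.card_union_of_disjoint (disj_rel s g ι hg c i hs hi), Finset.card_map]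
  rfl

lemma cnt_rel_self {n : ℕ} (s : κ → S) (g : Fin n → κ) (ι : Fin n → S)
    (hg : Function.Injective g) (c : S) (hs : ∀ k, s (g k) = c) (hι : ∀ k, ι k ≠ c) :
    cnt c (rel n s g ι) + n = cnt c s := by
  have h1 : univ.filter (fun p => s p = c) =
      univ.filter (fun p => rel n s g ι p = c) ∪ (univ : Finset (Fin n)).map ⟨g, hg⟩ := by
    ext p
    simp only [Finset.mem_filter, Finset.mem_univ, true_and, Finset.mem_union, Finset.mem_map,
      Function.Embedding.coeFn_mk]
    by_cases h : ∃ k, g k = p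
    · obtain ⟨k, rfl⟩ := h
      rw [hs k]
      exact ⟨fun _ => Or.inr ⟨k, rfl⟩, fun _ => rfl⟩
    · rw [rel_out n s g ι p (fun k hk => h ⟨k, hk⟩)]
      exact ⟨fun h' => Or.inl h', fun h' => h'.resolve_right h⟩
  have h2 : Disjoint (univ.filter (fun p => rel n s g ι p = c))
      ((univ : Finset (Fin n)).map ⟨g, hg⟩) := by
    rw [Finset.disjoint_left]
    intro p hp hp'
    rw [Finset.mem_filter] at hp
    rw [Finset.mem_map] at hp'
    obtain ⟨k, _, rfl⟩ := hp'
    have h3 := hp.2
    simp only [Function.Embedding.coeFn_mk] at h3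
    rw [rel_in n s g ι hg k] at h3
    exact hι k h3
  rw [cnt, cnt, h1, Finset.card_union_of_disjoint h2, Finset.card_map, Finset.card_univ,
    Fintype.card_fin]

/-- The enumeration of the letters of a label. -/
lemma exists_enum (s : κ → S) (c : S) (n : ℕ) (h : cnt c s = n) :
    ∃ x : Fin n → κ, Function.Injective x ∧ ∀ p, s p = c ↔ ∃ k, x k = p := by
  have h1 : Fintype.card {p // s p = c} = n := by
    rw [← h, cnt, Fintype.card_subtype]
  let e : {p // s p = c} ≃ Fin n := Fintype.equivFinOfCardEq h1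
  refine ⟨fun k => (e.symm k : κ), ?_, ?_⟩
  · intro a b hab
    exact e.symm.injective (Subtype.ext hab)
  · intro p
    constructor
    · intro hp
      exact ⟨e ⟨p, hp⟩, by simp⟩
    · rintro ⟨k, rfl⟩
      exact (e.symm k).2

/-- Injective maps into an enumerated set of the same cardinality are permutations. -/
lemma sum_enum {n : ℕ} (s : κ → S) (c : S) (x : Fin n → κ) (hx : Function.Injective x)
    (hxs : ∀ p, s p = c ↔ ∃ k, x k = p) (F : (Fin n → κ) → ℂ) :
    (∑ g : Fin n → κ, if Function.Injective g ∧ ∀ i, s (g i) = c then F g else 0) =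
      ∑ σ : Equiv.Perm (Fin n), F (fun k => x (σ k)) := by
  rw [← Finset.sum_filter]
  symm
  refine Finset.sum_bij (fun σ _ => fun k => x (σ k)) ?_ ?_ ?_ ?_
  · intro σ _
    rw [Finset.mem_filter]
    refine ⟨Finset.mem_univ _, fun a b hab => σ.injective (hx hab), fun i => ?_⟩
    exact (hxs _).2 ⟨_, rfl⟩
  · intro σ _ σ' _ h
    ext k
    have := congrFun h k
    exact congrArg Fin.val (hx this)
  · intro g hg
    rw [Finset.mem_filter] at hg
    obtain ⟨_, hgi, hgs⟩ := hg
    have h1 : ∀ i, ∃ k, x k = g i := fun i => (hxs _).1 (hgs i)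
    choose k hk using h1
    have h2 : Function.Injective k := by
      intro a b hab
      apply hgi
      rw [← hk a, ← hk b, hab]
    refine ⟨Equiv.ofBijective k (Finite.injective_iff_bijective.1 h2), Finset.mem_univ _, ?_⟩
    funext i
    exact hk i
  · intro σ _
    rfl

end Lab

section Form

variable {κ : Type} [Fintype κ] [DecidableEq κ] {m : ℕ} {A : Type*} [CommRing A] [Algebra ℂ A]

/-- The value of the form at a labelled word. -/
noncomputable def Phi (φ : MultilinearMap ℂ (fun _ : Fin (m + 2) => A) ℂ) (z : κ → A)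
    (c : Fin (m + 3)) : (κ → Fin (m + 3)) → Unit → ℂ := fun s _ =>
  if cnt c s = 0 ∧ ∀ j, j ≠ c → cnt j s = m + 1 then
    φ (fun i => ∏ p ∈ univ.filter (fun p => s p = c.succAbove i), z p) else 0

variable {φ : MultilinearMap ℂ (fun _ : Fin (m + 2) => A) ℂ}

lemma phi_ord (hs : IsSymm φ) (c : Fin (m + 3)) (ε : Fin (m + 2) → Fin (m + 3))
    (hε : Function.Injective ε) (hc : ∀ i, ε i ≠ c) (P : Fin (m + 3) → A) :
    φ (fun i => P (ε i)) = φ (fun i => P (c.succAbove i)) := by
  have h1 : ∀ i, ∃ k, c.succAbove k = ε i := fun i => Fin.exists_succAbove_eq (hc i)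
  choose k hk using h1
  have h2 : Function.Injective k := by
    intro a b hab
    apply hε
    rw [← hk a, ← hk b, hab]
  have h3 := hs (Equiv.ofBijective k (Finite.injective_iff_bijective.1 h2))
    (fun i => P (c.succAbove i))
  rw [← h3]
  congr 1
  funext i
  rw [Equiv.ofBijective_apply, hk]

lemma cnt_inv (τ : Equiv.Perm (Fin (m + 3))) (j : Fin (m + 3)) (s : κ → Fin (m + 3)) :
    cnt j (fun p => τ⁻¹ (s p)) = cnt (τ j) s := by
  unfold cnt
  congr 1
  ext p
  simp only [Finset.mem_filter, Finset.mem_univ, true_and]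
  rw [Equiv.Perm.inv_eq_iff_eq]

lemma act_Phi (hs : IsSymm φ) (z : κ → A) (τ : Equiv.Perm (Fin (m + 3))) (c : Fin (m + 3)) :
    act τ (Phi φ z c) = Phi φ z (τ c) := by
  funext s w
  simp only [act, Phi]
  have h1 : (cnt c (fun p => τ⁻¹ (s p)) = 0 ∧ ∀ j, j ≠ c → cnt j (fun p => τ⁻¹ (s p)) = m + 1) ↔
      (cnt (τ c) s = 0 ∧ ∀ j, j ≠ τ c → cnt j s = m + 1) := by
    simp only [cnt_inv]
    constructor
    · rintro ⟨h1, h2⟩
      refine ⟨h1, fun j hj => ?_⟩
      have h3 := h2 (τ⁻¹ j) (fun h => hj (by rw [← h]; simp))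
      simpa using h3
    · rintro ⟨h1, h2⟩
      exact ⟨h1, fun j hj => h2 _ (fun h => hj (τ.injective h))⟩
  by_cases h : cnt (τ c) s = 0 ∧ ∀ j, j ≠ τ c → cnt j s = m + 1
  · rw [if_pos h, if_pos (h1.2 h)]
    rw [← phi_ord hs (τ c) (fun i => τ (c.succAbove i))
      (fun a b hab => Fin.succAbove_right_injective (τ.injective hab))
      (fun i h => Fin.succAbove_ne c i (τ.injective h))
      (fun j => ∏ p ∈ univ.filter (fun p => s p = j), z p)]
    congr 1
    funext i
    congr 1
    ext p
    simp only [Finset.mem_filter, Finset.mem_univ, true_and]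
    rw [Equiv.Perm.inv_eq_iff_eq]
  · rw [if_neg h, if_neg (fun hh => h (h1.1 hh))]

/-- Supports. -/
lemma supp (z : κ → A) (c : Fin (m + 3)) {n : ℕ} (ι : Fin n → Fin (m + 3)) (hι : ∀ k, ι k ≠ c)
    (s : κ → Fin (m + 3)) (w : Unit) (h : EL c (List.ofFn ι) (Phi φ z c) s w ≠ 0) :
    cnt c s = n ∧ ∀ j, j ≠ c → cnt j s + (univ.filter (fun k => ι k = j)).card = m + 1 := by
  rw [EL_eq c n ι hι] at h
  obtain ⟨g, _, hg⟩ := Finset.exists_ne_zero_of_sum_ne_zero h
  split_ifs at hg with h1
  · obtain ⟨h2, h3⟩ := h1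
    simp only [Phi] at hg
    split_ifs at hg with h4
    · obtain ⟨h5, h6⟩ := h4
      constructor
      · rw [← cnt_rel_self s g ι h2 c h3 hι, h5, zero_add]
      · intro j hj
        rw [← cnt_rel s g ι h2 c j h3 hj]
        exact h6 j hj
    · exact absurd rfl hg
  · exact absurd rfl hg

/-- **(EV)** the value of a product of replacement operators at a labelled word. -/
theorem ev (hs : IsSymm φ) (z : κ → A) (c : Fin (m + 3)) {n : ℕ} (ι : Fin n → Fin (m + 3))
    (hι : ∀ k, ι k ≠ c) (s : κ → Fin (m + 3)) (x : Fin n → κ) (hx : Function.Injective x)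
    (hxs : ∀ p, s p = c ↔ ∃ k, x k = p)
    (hcnt : ∀ j, j ≠ c → cnt j s + (univ.filter (fun k => ι k = j)).card = m + 1)
    (ε : Fin (m + 2) → Fin (m + 3)) (hε : Function.Injective ε) (hεc : ∀ i, ε i ≠ c) (w : Unit) :
    EL c (List.ofFn ι) (Phi φ z c) s w = ∑ σ : Equiv.Perm (Fin n),
      φ (fun i => (∏ p ∈ univ.filter (fun p => s p = ε i), z p) *
        ∏ k ∈ univ.filter (fun k => ι k = ε i), z (x (σ k))) := by
  rw [EL_eq c n ι hι, sum_enum s c x hx hxs (fun g => Phi φ z c (rel n s g ι) w)]
  refine Finset.sum_congr rfl fun σ _ => ?_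
  have hg : Function.Injective (fun k => x (σ k)) := fun a b hab => σ.injective (hx hab)
  have hgs : ∀ k, s (x (σ k)) = c := fun k => (hxs _).2 ⟨_, rfl⟩
  have hn : cnt c s = n := by
    rw [cnt]
    have h1 : univ.filter (fun p => s p = c) = (univ : Finset (Fin n)).map ⟨x, hx⟩ := by
      ext p
      simp only [Finset.mem_filter, Finset.mem_univ, true_and, Finset.mem_map,
        Function.Embedding.coeFn_mk]
      exact hxs p
    rw [h1, Finset.card_map, Finset.card_univ, Fintype.card_fin]
  simp only [Phi]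
  rw [if_pos]
  · rw [← phi_ord hs c ε hε hεc (fun j => ∏ p ∈ univ.filter
      (fun p => rel n s (fun k => x (σ k)) ι p = j), z p)]
    congr 1
    funext i
    exact prod_rel s _ ι hg c (ε i) hgs (hεc i) z
  · constructor
    · have h1 := cnt_rel_self s _ ι hg c hgs hι
      omega
    · intro j hj
      rw [cnt_rel s _ ι hg c j hgs hj]
      exact hcnt j hj

end Form

end Vale.Agent.P181.H780.LT
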