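import Vale.Agent.P181.H780.LT.Ev
import Vale.Agent.P181.H869.Star
import Vale.Agent.P181.H270.S4a

set_option autoImplicit false
set_option linter.unusedSectionVars false

/-!
# P181: labels, KILL, exchange and STAR
-/

namespace Vale.Agent.P181.H780.LT

open Finset Vale.Agent.P181 Vale.Agent.P181.H663 Vale.Agent.P181.H280 Vale.Agent.P181.H270
  Vale.Agent.P181.H73 Vale.Agent.P181.H983

section Set

variable {κ S W : Type} [Fintype κ] [DecidableEq κ] [DecidableEq S]

/-- The product of the operators `E_cj`, `j ∈ X`. -/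
noncomputable def ES (c : S) (X : Finset S) (f : (κ → S) → W → ℂ) : (κ → S) → W → ℂ :=
  EL c X.toList f

lemma ES_insert (c j : S) (X : Finset S) (hj : j ∉ X) (hjc : j ≠ c) (hc : c ∉ X)
    (f : (κ → S) → W → ℂ) : ES c (insert j X) f = EE c j (ES c X f) := by
  rw [ES, ES, ← EL_cons]
  refine EL_perm c (Finset.toList_insert hj) ?_ f
  rw [Finset.mem_toList, Finset.mem_insert, not_or]
  exact ⟨Ne.symm hjc, hc⟩

lemma ES_ofFn {n : ℕ} (c : S) (X : Finset S) (hc : c ∉ X) (ι : Fin n → S)
    (hι : Function.Injective ι) (hX : ∀ j, j ∈ X ↔ ∃ k, ι k = j) (f : (κ → S) → W → ℂ) :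
    ES c X f = EL c (List.ofFn ι) f := by
  refine EL_perm c ?_ (by rw [Finset.mem_toList]; exact hc) f
  rw [List.perm_ext_iff_of_nodup (Finset.nodup_toList X) (List.nodup_ofFn.2 hι)]
  intro j
  rw [Finset.mem_toList, List.mem_ofFn, hX j]

lemma act_ES (τ : Equiv.Perm S) (c : S) (X Y : Finset S) (hc : c ∉ X)
    (hY : ∀ j, τ j ∈ Y ↔ j ∈ X) (f : (κ → S) → W → ℂ) :
    act τ (ES c X f) = ES (τ c) Y (act τ f) := by
  rw [ES, act_EL, ES]
  refine EL_perm _ ?_ ?_ _
  · rw [List.perm_ext_iff_of_nodup (List.Nodup.map τ.injective (Finset.nodup_toList X))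
      (Finset.nodup_toList Y)]
    intro j
    rw [List.mem_map, Finset.mem_toList]
    constructor
    · rintro ⟨i, hi, rfl⟩
      rw [Finset.mem_toList] at hi
      exact (hY i).2 hi
    · intro hj
      refine ⟨τ⁻¹ j, ?_, by simp⟩
      rw [Finset.mem_toList, ← hY]
      simpa using hj
  · rw [List.mem_map]
    rintro ⟨i, hi, h⟩
    rw [Finset.mem_toList] at hi
    rw [← τ.injective h] at hc
    exact hc hi

end Set

section Form

variable {κ : Type} [Fintype κ] [DecidableEq κ] {m : ℕ} {A : Type*} [CommRing A] [Algebra ℂ A]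
  {φ : MultilinearMap ℂ (fun _ : Fin (m + 2) => A) ℂ}

/-- Supports. -/
lemma supp_ES (z : κ → A) (c : Fin (m + 3)) (X : Finset (Fin (m + 3))) (hc : c ∉ X)
    (s : κ → Fin (m + 3)) (w : Unit) (h : ES c X (Phi φ z c) s w ≠ 0) :
    cnt c s = X.card ∧ ∀ j, j ≠ c → cnt j s + (if j ∈ X then 1 else 0) = m + 1 := by
  have hX : ∀ j, j ∈ X ↔ ∃ k, X.orderEmbOfFin rfl k = j := by
    intro j
    have h1 := Finset.range_orderEmbOfFin X (rfl : X.card = X.card)
    have h2 : j ∈ Set.range (X.orderEmbOfFin (rfl : X.card = X.card)) ↔ j ∈ X := by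
      rw [h1, Finset.mem_coe]
    rw [← h2]
    rfl
  rw [ES_ofFn c X hc (X.orderEmbOfFin rfl) (X.orderEmbOfFin rfl).injective hX] at h
  have h1 := supp z c (X.orderEmbOfFin rfl) (fun k hk => hc ((hX c).2 ⟨k, hk⟩)) s w h
  refine ⟨h1.1, fun j hj => ?_⟩
  rw [← h1.2 j hj]
  congr 1
  split_ifs with h3
  · obtain ⟨k, hk⟩ := (hX j).1 h3
    symm
    rw [Finset.card_eq_one]
    refine ⟨k, ?_⟩
    ext k'
    rw [Finset.mem_filter, Finset.mem_singleton]
    constructor
    · rintro ⟨_, h4⟩
      exact (X.orderEmbOfFin rfl).injective (h4.trans hk.symm)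
    · rintro rfl
      exact ⟨Finset.mem_univ _, hk⟩
  · symm
    rw [Finset.card_eq_zero, Finset.filter_eq_empty_iff]
    intro k _ hk
    exact h3 ((hX j).2 ⟨k, hk⟩)

/-- **KILL in labels.** -/
theorem kill_lab (hs : IsSymm φ) (L : Submodule ℂ A)
    (hK : ∀ l ∈ L, ∀ y : Fin (m + 2) → A, (∀ i, y i ∈ L ^ m) → φ (fun i => l * y i) = 0)
    (z : κ → A) (hz : ∀ p, z p ∈ L) (c : Fin (m + 3)) :
    ES c ({c}ᶜ) (Phi φ z c) = 0 := by
  funext s w
  change ES c ({c}ᶜ) (Phi φ z c) s w = 0
  by_contra h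
  have hcX : c ∉ ({c}ᶜ : Finset (Fin (m + 3))) := by simp
  obtain ⟨h1, h2⟩ := supp_ES z c _ hcX s w h
  apply h
  have hcard : ({c}ᶜ : Finset (Fin (m + 3))).card = m + 2 := by
    rw [Finset.card_compl, Fintype.card_fin, Finset.card_singleton]
    rfl
  rw [hcard] at h1
  obtain ⟨x, hx, hxs⟩ := exists_enum s c (m + 2) h1
  have hne : ∀ k, c.succAbove k ≠ c := fun k => Fin.succAbove_ne c k
  rw [ES_ofFn c _ hcX c.succAbove Fin.succAbove_right_injective (by
    intro j
    rw [Finset.mem_compl, Finset.mem_singleton]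
    constructor
    · intro hj
      exact Fin.exists_succAbove_eq hj
    · rintro ⟨k, rfl⟩
      exact hne k)]
  have hfil : ∀ j : Fin (m + 2), univ.filter (fun k => c.succAbove k = c.succAbove j) = {j} := by
    intro j
    ext k
    rw [Finset.mem_filter, Finset.mem_singleton]
    constructor
    · rintro ⟨_, h⟩
      exact Fin.succAbove_right_injective h
    · rintro rfl
      exact ⟨Finset.mem_univ _, rfl⟩
  have hcnt : ∀ j, j ≠ c → cnt j s + (univ.filter (fun k => c.succAbove k = j)).card = m + 1 := by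
    intro j hj
    obtain ⟨k, rfl⟩ := Fin.exists_succAbove_eq hj
    rw [hfil k, Finset.card_singleton]
    have h3 := h2 _ (hne k)
    rw [if_pos (by rw [Finset.mem_compl, Finset.mem_singleton]; exact hne k)] at h3
    exact h3
  rw [ev hs z c c.succAbove hne s x hx hxs hcnt c.succAbove Fin.succAbove_right_injective hne]
  let Y : Fin (m + 2) → A := fun i => ∏ p ∈ univ.filter (fun p => s p = c.succAbove i), z p
  have hY : ∀ i, Y i ∈ L ^ m := by
    intro i
    have h3 := h2 _ (hne i)
    rw [if_pos (by rw [Finset.mem_compl, Finset.mem_singleton]; exact hne i)] at h3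
    have h4 : (univ.filter (fun p => s p = c.succAbove i)).card = m := by
      have h5 : cnt (c.succAbove i) s = m := by omega
      exact h5
    rw [← h4]
    exact prod_mem_card L _ _ (fun p _ => hz p)
  have h5 := polar (mulArg φ Y) L (by
    intro l hl
    rw [mulArg_apply]
    have h6 := hK l hl Y hY
    rw [← h6]
    congr 1
    funext i
    exact mul_comm _ _) (fun k => z (x k)) (fun k => hz _)
  rw [← h5]
  refine Finset.sum_congr rfl fun σ _ => ?_
  rw [mulArg_apply]
  congr 1
  funext i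
  rw [hfil i, Finset.prod_singleton]

end Form

end Vale.Agent.P181.H780.LT
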