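import Vale.Agent.P181.H907.TallBoth
import Vale.Agent.P181.H715.LT.Plug

set_option autoImplicit false

/-!
# P181: tall shapes, all thresholds in one statement
-/

namespace Vale.Agent.P181.H780.LT

open Vale.Agent.P181 Vale.Agent.P181.H280

/-- **Foulkes' inequality for tall shapes**: `lam_a ≥ b - a + 2`, and `lam_a ≥ b - a + 1` when
`b = a + 1` or `a` is even and `b` odd. -/
theorem tall_three (a b n : ℕ) (ha : 3 ≤ a) (hab : a ≤ b) (han : a ≤ n) (lam : Fin n → ℕ)
    (h : ∀ i : Fin n, (i : ℕ) < a →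
      b + 2 ≤ lam i + a ∨ (b + 1 ≤ lam i + a ∧ (b = a + 1 ∨ (Even a ∧ Odd b)))) :
    plethMult a b n lam ≤ plethMult b a n lam := by
  by_cases hb : b = a + 1
  · subst hb
    apply H715.LT.tallTwo a n lam ha han
    intro i hi
    rcases h i hi with h1 | h1
    · omega
    · omega
  · apply H907.tall_both a b n ha hab han lam
    intro i hi
    rcases h i hi with h1 | ⟨h1, h2⟩
    · exact Or.inl h1
    · rcases h2 with h2 | h2
      · exact absurd h2 hb
      · exact Or.inr ⟨h2.1, h2.2, h1⟩

end Vale.Agent.P181.H780.LT
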