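import Vale.Agent.P181.H780.LT.Defs
import Vale.Agent.P181.H394.PLem
import Vale.Agent.P181.H73.TallQ
import Vale.Agent.P181.H73.Asm
import Vale.Agent.P181.H530.Zero
import Vale.Agent.P181.H530.Pad

set_option autoImplicit false

/-!
# P181: `b = a + 1`, `lam_a ≥ 2`: the end (X5)
-/

open scoped TensorProduct

namespace Vale.Agent.P181.H780.LT

open Vale.Agent.P181 Vale.Agent.P181.H280 Vale.Agent.P181.H270 Vale.Agent.P181.H73
  Vale.Agent.P181.H983 Finset MvPolynomial

/-- The form with the first argument fixed. -/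
noncomputable def fixZero {c : ℕ} (φ : Fm c) (g : MvPolynomial (Fin (c + 3)) ℂ) :
    MultilinearMap ℂ (fun _ : Fin (c + 2) => MvPolynomial (Fin (c + 3)) ℂ) ℂ :=
  φ.curryLeft g

lemma fixZero_apply {c : ℕ} (φ : Fm c) (g : MvPolynomial (Fin (c + 3)) ℂ)
    (v : Fin (c + 2) → MvPolynomial (Fin (c + 3)) ℂ) :
    fixZero φ g v = φ (Fin.cons g v) := rfl

/-- Peeling with the P-lemma. -/
theorem van_of_peel {c : ℕ} (φ : Fm c) (h : Peel c φ) : Van c φ := by
  have h1 : ∀ u ∈ linS (c + 3), ∀ Q : Fin (c + 2) → MvPolynomial (Fin (c + 3)) ℂ,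
      (∀ i, Q i ∈ linS (c + 3) ^ (c + 2)) → fixZero φ (u ^ (c + 2)) Q = 0 := by
    intro u hu
    refine H394.plem (linS (c + 3)) (fun _ => c + 2) (fun i => by have := i.2; omega) _ ?_
    intro w hw v hv
    rw [fixZero_apply]
    rw [← h u hu w hw (Fin.cons (0 : MvPolynomial (Fin (c + 3)) ℂ) v) (by
      intro p
      refine Fin.cases ?_ (fun p => ?_) p
      · exact Submodule.zero_mem _
      · exact hv p)]
    congr 1
    funext p
    refine Fin.cases ?_ (fun p => ?_) p
    · rfl
    · rw [Fin.cons_succ, Fin.cons_succ, if_neg (Fin.succ_ne_zero p)]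
  intro P hP
  have h2 : ∀ g ∈ linS (c + 3) ^ (c + 2), φ (Fin.cons g (fun i => P i.succ)) = 0 := by
    intro g hg
    have h3 := pow_le_span_pow (linS (c + 3)) (c + 2) hg
    refine Submodule.span_induction (p := fun g _ => φ (Fin.cons g (fun i => P i.succ)) = 0)
      ?_ ?_ ?_ ?_ h3
    · rintro _ ⟨u, hu, rfl⟩
      exact h1 u hu _ (fun i => hP i.succ)
    · exact φ.map_coord_zero 0 (by simp)
    · intro x y _ _ hx hy
      have h4 : ∀ z, (Fin.cons z (fun i => P i.succ) : Fin (c + 3) → MvPolynomial (Fin (c + 3)) ℂ) =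
          Function.update (Fin.cons x (fun i => P i.succ)) 0 z := by
        intro z
        funext p
        refine Fin.cases ?_ (fun p => ?_) p
        · simp
        · simp
      rw [h4 (x + y), MultilinearMap.map_update_add, ← h4, ← h4, hx, hy, add_zero]
    · intro t x _ hx
      have h4 : ∀ z, (Fin.cons z (fun i => P i.succ) : Fin (c + 3) → MvPolynomial (Fin (c + 3)) ℂ) =
          Function.update (Fin.cons x (fun i => P i.succ)) 0 z := by
        intro z
        funext p
        refine Fin.cases ?_ (fun p => ?_) p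
        · simp
        · simp
      rw [h4 (t • x), MultilinearMap.map_update_smul, ← h4, hx, smul_zero]
  have h5 := h2 (P 0) (hP 0)
  have h6 : (Fin.cons (P 0) (fun i => P i.succ) : Fin (c + 3) → MvPolynomial (Fin (c + 3)) ℂ) =
      P := by
    funext p
    refine Fin.cases ?_ (fun p => ?_) p
    · rfl
    · rfl
  rw [h6] at h5
  exact h5

/-- Two contractions of a symmetric form give a symmetric form. -/
lemma symm_two {c : ℕ} (F : Fm c) (hs : IsSymm F) : IsSymm ((altC (xs (c + 3)))^[2] F) := by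
  have h1 := isSgn_iter hs (xs (c + 3)) 2
  intro σ P
  have h2 := h1 σ P
  rw [h2]
  have h3 : (((Equiv.Perm.sign σ : ℤˣ) : ℤ) : ℂ) ^ 2 = 1 := by
    rcases Int.units_eq_one_or (Equiv.Perm.sign σ) with h | h <;> rw [h] <;> norm_num
  rw [h3, one_mul]

/-- The two contractions vanish. -/
theorem van_two (hS : StarStmt) (hK : KillStmt) (hO : KStarOdd) {c : ℕ} (F : Fm c)
    (hs : IsSymm F) (hR : Rel 1 1 (linS (c + 3)) F) : Van c ((altC (xs (c + 3)))^[2] F) := by
  apply van_of_peel
  rcases Nat.even_or_odd c with h | h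
  · exact hS c h F hs hR
  · exact hO c h _ (symm_two F hs) (hK c F hs hR)

/-- `dim V = a`. -/
theorem tallTwo_self (hS : StarStmt) (hK : KillStmt) (hO : KStarOdd) {a : ℕ} (ha : 3 ≤ a)
    (lam : Fin a → ℕ) (h2 : ∀ i, 2 ≤ lam i) :
    plethMult a (a + 1) a lam ≤ plethMult (a + 1) a a lam := by
  obtain ⟨c, rfl⟩ := Nat.exists_eq_add_of_le' ha
  have hcard : Fintype.card (H394.T 1 (c + 3) 1) = c + 3 + 1 := by
    rw [Fintype.card_sum, Fintype.card_prod, Fintype.card_fin, Fintype.card_fin]
    ring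
  let ε : H394.T 1 (c + 3) 1 ≃ Fin (c + 3 + 1) := Fintype.equivFinOfCardEq hcard
  refine (H394.plethMult_le_of_formG ε lam ?_).2
  intro l hx hF
  have hHW : HWForm (xs (c + 3)) (fun i => pderiv i) (fun b => linS (c + 3) ^ b) (c + 3 + 1)
      (fun i => (lam i : ℂ)) (formOf l) := by
    have h1 := hwForm_formOf (le_refl (c + 3)) lam l hx
    simpa using h1
  apply descent lam (formOf l) (formOf_symm l) hHW 2 (by omega) h2
  intro P hP
  apply van_two hS hK hO (formOf l) (formOf_symm l) hF
  intro i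
  exact hP i

/-- **(X5)** -/
theorem tallTwo (hS : StarStmt) (hK : KillStmt) (hO : KStarOdd) : TallTwo := by
  intro a n lam ha han h2
  apply all_n a (a + 1) n han lam
  intro mu _ _ hmu
  apply tallTwo_self hS hK hO ha mu
  intro i
  rw [hmu i]
  exact h2 _ i.2

end Vale.Agent.P181.H780.LT
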